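import Vale.Agent.Lib.P348.helper23.Basics

/-!
# P348, piece K3: norms of one-site operators applied to a vector

The raising operator at the site `j` maps `ψ` to a vector of squared norm `2 * uw j ψ` (twice the
weight of the configurations that are not up at `j`), and the third spin component at `j` does
not increase the norm.
-/

namespace Vale.Agent.Lib.P348.H4

open Matrix

open Vale.Agent.Lib.P361 Vale.Agent.Lib.P348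

/-- The squared norm of `A ψ` is the expectation of `Aᴴ A` in `ψ`. -/
theorem nsq_mulVec {n : Type*} [Fintype n] [DecidableEq n] (A : Matrix n n ℂ) (ψ : n → ℂ) :
    ((nsq (A *ᵥ ψ) : ℝ) : ℂ) = ip ψ ((Aᴴ * A) *ᵥ ψ) := by
  rw [nsq_def, ip_def]
  have h1 : ∑ σ, star (ψ σ) * ((Aᴴ * A) *ᵥ ψ) σ = star ψ ⬝ᵥ ((Aᴴ * A) *ᵥ ψ) := rfl
  rw [h1, ← mulVec_mulVec, dotProduct_mulVec, ← star_mulVec]
  have h2 : star (A *ᵥ ψ) ⬝ᵥ (A *ᵥ ψ) = ∑ σ, star ((A *ᵥ ψ) σ) * (A *ᵥ ψ) σ := rfl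
  rw [h2]
  push_cast
  refine Finset.sum_congr rfl (fun σ _ => ?_)
  rw [Complex.star_def, Complex.conj_mul']

/-- The values of `j (3 - j)` for `j = 0, 1, 2`. -/
theorem weight_val (i : Fin 3) :
    ((i : ℕ) : ℝ) * (((3 : ℕ) : ℝ) - ((i : ℕ) : ℝ)) = if i = 0 then 0 else 2 := by
  fin_cases i <;> simp <;> norm_num

theorem nsq_raise {L : ℕ} (j : Fin L) (ψ : (Fin L → Fin 3) → ℂ) :
    nsq (raise j *ᵥ ψ) = 2 * uw j ψ := by
  have hA : (raise j)ᴴ * raise j = diagonal (fun σ : Fin L → Fin 3 =>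
      (((((σ j : Fin 3) : ℕ) : ℝ) * (((3 : ℕ) : ℝ) - (((σ j : Fin 3) : ℕ) : ℝ)) : ℝ) : ℂ)) := by
    rw [raise_def, siteOp_conjTranspose, siteOp_mul]
    have h1 : (spinPlus 3)ᴴ * spinPlus 3 = spinMinus 3 * spinPlus 3 := rfl
    rw [h1, spinMinus_mul_spinPlus, siteOp_diagonal]
  have h := nsq_mulVec (raise j) ψ
  rw [hA, ip_def] at h
  have h2 : ∀ σ : Fin L → Fin 3,
      star (ψ σ) * (diagonal (fun σ : Fin L → Fin 3 =>
        (((((σ j : Fin 3) : ℕ) : ℝ) * (((3 : ℕ) : ℝ) - (((σ j : Fin 3) : ℕ) : ℝ)) : ℝ) : ℂ))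
          *ᵥ ψ) σ
        = (((if σ j = 0 then 0 else 2 * ‖ψ σ‖ ^ 2 : ℝ)) : ℂ) := by
    intro σ
    rw [mulVec_diagonal, weight_val (σ j)]
    have h3 : star (ψ σ) * ψ σ = ((‖ψ σ‖ ^ 2 : ℝ) : ℂ) := by
      rw [Complex.star_def, Complex.conj_mul']
      push_cast
      rfl
    by_cases h0 : σ j = 0
    · rw [if_pos h0, if_pos h0]
      simp
    · rw [if_neg h0, if_neg h0]
      have h4 : star (ψ σ) * (((2 : ℝ) : ℂ) * ψ σ) = ((2 : ℝ) : ℂ) * (star (ψ σ) * ψ σ) := by ring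
      rw [h4, h3]
      push_cast
      rfl
  rw [Finset.sum_congr rfl (fun σ _ => h2 σ), ← Complex.ofReal_sum] at h
  have h5 := Complex.ofReal_injective h
  rw [h5, uw_def, Finset.mul_sum]
  refine Finset.sum_congr rfl (fun σ _ => ?_)
  by_cases h0 : σ j = 0
  · rw [if_pos h0, if_pos h0, mul_zero]
  · rw [if_neg h0, if_neg h0]

theorem uw_le_nsq {L : ℕ} (j : Fin L) (ψ : (Fin L → Fin 3) → ℂ) : uw j ψ ≤ nsq ψ := by
  rw [uw_def, nsq_def]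
  refine Finset.sum_le_sum (fun σ _ => ?_)
  by_cases h0 : σ j = 0
  · rw [if_pos h0]
    positivity
  · rw [if_neg h0]

theorem nsq_raise_le {L : ℕ} (j : Fin L) (ψ : (Fin L → Fin 3) → ℂ) :
    nsq (raise j *ᵥ ψ) ≤ 2 * nsq ψ := by
  rw [nsq_raise]
  exact mul_le_mul_of_nonneg_left (uw_le_nsq j ψ) (by norm_num)

theorem nsq_siteZ_le {L : ℕ} (j : Fin L) (ψ : (Fin L → Fin 3) → ℂ) :
    nsq (siteOp j (spinZ 3) *ᵥ ψ) ≤ nsq ψ := by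
  have hZ : spinZ 3 = diagonal (fun i : Fin 3 =>
      (((((3 : ℕ) : ℝ) - 1) / 2 - ((i : ℕ) : ℝ) : ℝ) : ℂ)) := rfl
  rw [nsq_def, nsq_def, hZ, siteOp_diagonal]
  refine Finset.sum_le_sum (fun σ _ => ?_)
  rw [mulVec_diagonal, norm_mul, mul_pow]
  have hv : ‖(((((3 : ℕ) : ℝ) - 1) / 2 - (((σ j : Fin 3) : ℕ) : ℝ) : ℝ) : ℂ)‖ ≤ 1 := by
    rw [Complex.norm_real, Real.norm_eq_abs, abs_le]
    have h1 : ((σ j : Fin 3) : ℕ) < 3 := (σ j).2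
    have h2 : (((σ j : Fin 3) : ℕ) : ℝ) ≤ 2 := by exact_mod_cast Nat.lt_succ_iff.mp h1
    have h3 : (0 : ℝ) ≤ (((σ j : Fin 3) : ℕ) : ℝ) := Nat.cast_nonneg _
    constructor <;> push_cast <;> linarith
  have hv2 : ‖(((((3 : ℕ) : ℝ) - 1) / 2 - (((σ j : Fin 3) : ℕ) : ℝ) : ℝ) : ℂ)‖ ^ 2 ≤ 1 :=
    pow_le_one₀ (norm_nonneg _) hv
  calc ‖(((((3 : ℕ) : ℝ) - 1) / 2 - (((σ j : Fin 3) : ℕ) : ℝ) : ℝ) : ℂ)‖ ^ 2 * ‖ψ σ‖ ^ 2
      ≤ 1 * ‖ψ σ‖ ^ 2 := mul_le_mul_of_nonneg_right hv2 (by positivity)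
    _ = ‖ψ σ‖ ^ 2 := one_mul _

end Vale.Agent.Lib.P348.H4
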